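import Vale.Agent.P237.Quant.TailData.N90.tailN90P0Part0
import Vale.Agent.P237.Quant.TailData.N90.tailN90P0Part1
import Vale.Agent.P237.Quant.TailData.N90.tailN90P0Part2
import Vale.Agent.P237.Quant.TailData.N90.tailN90P0Part3
import Vale.Agent.P237.Quant.TailData.N90.tailN90P0Part4
import Vale.Agent.P237.Quant.TailData.N90.tailN90P0Part5
import Vale.Agent.P237.Quant.TailData.N90.tailN90P0Part6
import Vale.Agent.P237.Quant.TailData.N90.tailN90P0Part7

/-!
Tail calibration tailN90P0 in dimension 90. The check. Generated data, checked by the kernel.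
-/

set_option maxRecDepth 100000
set_option linter.all false

namespace Vale.Agent.P237.Quant.TailData

open TailCert


/-- The calibration. -/
noncomputable def tailN90P0 : Cfg :=
  tailN90P0Base.withIvals (List.flatten [tailN90P0L0, tailN90P0L1, tailN90P0L2, tailN90P0L3, tailN90P0L4, tailN90P0L5, tailN90P0L6, tailN90P0L7, tailN90P0L8, tailN90P0L9, tailN90P0L10, tailN90P0L11, tailN90P0L12, tailN90P0L13, tailN90P0L14, tailN90P0L15, tailN90P0L16, tailN90P0L17, tailN90P0L18, tailN90P0L19, tailN90P0L20, tailN90P0L21, tailN90P0L22, tailN90P0L23, tailN90P0L24, tailN90P0L25, tailN90P0L26, tailN90P0L27, tailN90P0L28])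

theorem tailN90P0_parts : [tailN90P0L0, tailN90P0L1, tailN90P0L2, tailN90P0L3, tailN90P0L4, tailN90P0L5, tailN90P0L6, tailN90P0L7, tailN90P0L8, tailN90P0L9, tailN90P0L10, tailN90P0L11, tailN90P0L12, tailN90P0L13, tailN90P0L14, tailN90P0L15, tailN90P0L16, tailN90P0L17, tailN90P0L18, tailN90P0L19, tailN90P0L20, tailN90P0L21, tailN90P0L22, tailN90P0L23, tailN90P0L24, tailN90P0L25, tailN90P0L26, tailN90P0L27, tailN90P0L28].Forall fun l => tailN90P0Base.partUsed tailN90P0Used l = true := by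
  simp only [List.forall_cons, List.Forall]
  exact ⟨tailN90P0L0_ok, tailN90P0L1_ok, tailN90P0L2_ok, tailN90P0L3_ok, tailN90P0L4_ok, tailN90P0L5_ok, tailN90P0L6_ok, tailN90P0L7_ok, tailN90P0L8_ok, tailN90P0L9_ok, tailN90P0L10_ok, tailN90P0L11_ok, tailN90P0L12_ok, tailN90P0L13_ok, tailN90P0L14_ok, tailN90P0L15_ok, tailN90P0L16_ok, tailN90P0L17_ok, tailN90P0L18_ok, tailN90P0L19_ok, tailN90P0L20_ok, tailN90P0L21_ok, tailN90P0L22_ok, tailN90P0L23_ok, tailN90P0L24_ok, tailN90P0L25_ok, tailN90P0L26_ok, tailN90P0L27_ok, tailN90P0L28_ok⟩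

theorem tailN90P0_check : tailN90P0.check = true :=
  Cfg.check_of_parts (by decide +kernel) tailN90P0_parts

end Vale.Agent.P237.Quant.TailData
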