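import Vale.Agent.P237.Quant.TailPartsLink
import Vale.Agent.P237.Quant.RowTables
import Vale.Agent.P237.Quant.EnvelopeTableData.N86
import Vale.Agent.P237.Quant.TailData.N90.tailN90P0
import Vale.Agent.P237.Quant.TailData.N90.tailN90P1
import Vale.Agent.P237.Quant.TailData.N90.tailN90P2
import Vale.Agent.P237.Quant.TailData.N90.tailN90P3
import Vale.Agent.P237.Quant.TailData.N90.tailN90N0
import Vale.Agent.P237.Quant.TailData.N90.tailN90N1

/-!
The tail inequalities of the rows of both sides in dimension 90. Generated.
-/

namespace Vale.Agent.P237.Quant

open TailCert TailData

/-- The tail inequalities of `negRow14` in dimension 90. -/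
theorem negRow14_tailAt90 : negRow14.TailAt 89 := by
  intro P hP
  simp only [negRow14, binsOf, List.mem_cons, List.not_mem_nil, or_false] at hP
  rcases hP with rfl | rfl
  · exact tailBin_negParts tailN90N0_check tailN90N0_parts envTable90_check (by decide +kernel)
  · exact tailBin_negParts tailN90N1_check tailN90N1_parts envTable90_check (by decide +kernel)

/-- The tail inequalities of `posRow55` in dimension 90. -/
theorem posRow55_tailAt90 : posRow55.TailAt 89 := by
  intro P hP
  simp only [posRow55, posRowB, posCuts14, posCuts16, binsOf, List.mem_cons, List.not_mem_nil, or_false] at hP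
  rcases hP with rfl | rfl | rfl | rfl
  · exact tailBin_posParts tailN90P0_check tailN90P0_parts envTable90_check (by decide +kernel)
  · exact tailBin_posParts tailN90P1_check tailN90P1_parts envTable90_check (by decide +kernel)
  · exact tailBin_posParts tailN90P2_check tailN90P2_parts envTable90_check (by decide +kernel)
  · exact tailBin_posParts tailN90P3_check tailN90P3_parts envTable90_check (by decide +kernel)

end Vale.Agent.P237.Quant
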